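import Mathlib
/-! Norm of `row * matrix * column` in a C⋆-algebra; Gram decomposition; `ℓ²` isometries. -/
set_option autoImplicit false
namespace Crest.Agent.KE
open Finset
open scoped InnerProductSpace ComplexOrder ComplexConjugate

theorem gram_dec {H β : Type*} [NormedAddCommGroup H] [InnerProductSpace ℂ H] [Finite β]
    (h : β → H) : ∃ (m : ℕ) (c : Fin m → β → ℂ),
      ∀ ν ν', ⟪h ν, h ν'⟫_ℂ = ∑ j, conj (c j ν) * c j ν' := by
  obtain ⟨m, v, hv⟩ := Matrix.posSemidef_iff_eq_sum_vecMulVec.mp (Matrix.posSemidef_gram ℂ h)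
  refine ⟨m, fun j ν => conj (v j ν), fun ν ν' => ?_⟩
  have := congrFun (congrFun hv ν) ν'
  simpa [Matrix.gram_apply, Matrix.sum_apply, Matrix.vecMulVec_apply] using this

theorem mat_key {B γ β : Type*} [CStarAlgebra B] [Fintype γ] [Fintype β] (q : β → B)
    (S : γ → β → ℂ) :
    ∑ j, star (∑ ν, S j ν • star (q ν)) * (∑ ν, S j ν • star (q ν)) =
      ∑ ν, ∑ ν', (∑ j, conj (S j ν) * S j ν') • (q ν * star (q ν')) := by
  simp only [star_sum, star_smul, star_star, Finset.sum_mul, Finset.mul_sum, smul_mul_smul_comm,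
    Finset.sum_smul, RCLike.star_def]
  rw [Finset.sum_comm]
  conv_rhs => rw [Finset.sum_comm]
  refine Finset.sum_congr rfl fun _ _ => Finset.sum_comm

theorem mat_bound {B α β : Type*} [CStarAlgebra B] [Fintype α] [Fintype β] (r : α → B) (q : β → B)
    (T : α → β → ℂ) {a b c : ℝ} (ha : 0 < a) (hb : 0 ≤ b)
    (hr : ∑ μ, r μ * star (r μ) = (a : ℂ) • 1) (hq : ∑ ν, q ν * star (q ν) = (b : ℂ) • 1)
    (hT : ∀ y : β → ℂ, ∑ μ, ‖∑ ν, T μ ν * y ν‖ ^ 2 ≤ c ^ 2 * ∑ ν, ‖y ν‖ ^ 2) :
    ‖∑ μ, ∑ ν, T μ ν • (r μ * star (q ν))‖ ^ 2 ≤ a * b * c ^ 2 := by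
  classical
  letI := CStarAlgebra.spectralOrder B
  haveI := CStarAlgebra.spectralOrderedRing B
  let G : Matrix β β ℂ := fun ν ν' =>
    (if ν = ν' then ((c ^ 2 : ℝ) : ℂ) else 0) - ∑ μ, conj (T μ ν) * T μ ν'
  have hG : G.PosSemidef := by
    refine Matrix.PosSemidef.of_dotProduct_mulVec_nonneg ?_ fun y => ?_
    · ext ν ν'
      simp only [G, Matrix.conjTranspose_apply, RCLike.star_def, map_sub, map_sum, map_mul,
        Complex.conj_conj, eq_comm (a := ν')]
      congr 1
      · split_ifs <;> simp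
      · exact Finset.sum_congr rfl fun _ _ => mul_comm _ _
    · have e : star y ⬝ᵥ G.mulVec y =
          ((c ^ 2 * ∑ ν, ‖y ν‖ ^ 2 - ∑ μ, ‖∑ ν, T μ ν * y ν‖ ^ 2 : ℝ) : ℂ) := by
        push_cast
        simp only [← Complex.conj_mul', dotProduct, Matrix.mulVec, G, sub_mul, ite_mul, zero_mul,
          Finset.sum_sub_distrib, Finset.sum_ite_eq, Finset.mem_univ, if_true, mul_sub, Pi.star_apply,
          RCLike.star_def, map_sum, map_mul, Finset.mul_sum, Finset.sum_mul]
        push_cast
        congr 1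
        · exact Finset.sum_congr rfl fun _ _ => by ring
        · rw [Finset.sum_comm (s := (univ : Finset α))]
          rw [Finset.sum_comm]
          refine Finset.sum_congr rfl fun ν _ => ?_
          rw [Finset.sum_comm]
          exact Finset.sum_congr rfl fun _ _ => Finset.sum_congr rfl fun _ _ => by ring
      rw [e]
      exact Complex.zero_le_real.mpr (sub_nonneg.mpr (hT y))
  obtain ⟨m, v, hv⟩ := Matrix.posSemidef_iff_eq_sum_vecMulVec.mp hG
  have hGe : ∀ ν ν', G ν ν' = ∑ j, v j ν * conj (v j ν') := fun ν ν' => by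
    have := congrFun (congrFun hv ν) ν'
    simpa [Matrix.sum_apply, Matrix.vecMulVec_apply] using this
  let z : α → B := fun μ => ∑ ν, T μ ν • star (q ν)
  let w : Fin m → B := fun j => ∑ ν, conj (v j ν) • star (q ν)
  have h1 : ∑ μ, star (z μ) * z μ + ∑ j, star (w j) * w j = ((c ^ 2 * b : ℝ) : ℂ) • 1 := by
    simp only [z, w, mat_key, ← Finset.sum_add_distrib, ← add_smul, Complex.conj_conj, ← hGe, G,
      add_sub_cancel, ite_smul, zero_smul, Finset.sum_ite_eq, Finset.mem_univ, if_true,
      ← Finset.smul_sum, hq, smul_smul]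
    push_cast; rfl
  set X := ∑ μ, ∑ ν, T μ ν • (r μ * star (q ν)) with hX
  have hX' : X = ∑ μ, r μ * z μ := by
    simp only [hX, z, Finset.mul_sum, mul_smul_comm]
  have h2 : ∑ μ, star ((a : ℂ) • z μ - star (r μ) * X) * ((a : ℂ) • z μ - star (r μ) * X) =
      ((a ^ 2 : ℝ) : ℂ) • ∑ μ, star (z μ) * z μ - (a : ℂ) • (star X * X) := by
    have e1 : ∑ μ, star (z μ) * (star (r μ) * X) = star X * X := by
      conv_rhs => rw [hX', star_sum, Finset.sum_mul]
      simp only [star_mul, mul_assoc, ← hX']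
    have e2 : ∑ μ, star X * r μ * z μ = star X * X := by
      simp only [mul_assoc, ← Finset.mul_sum, ← hX']
    have e3 : ∑ μ, star X * r μ * (star (r μ) * X) = (a : ℂ) • (star X * X) := by
      have : ∑ μ, star X * r μ * (star (r μ) * X) = star X * (∑ μ, r μ * star (r μ)) * X := by
        simp only [Finset.mul_sum, Finset.sum_mul, mul_assoc]
      rw [this, hr]; simp
    simp only [star_sub, star_smul, star_mul, star_star, sub_mul, mul_sub, smul_mul_smul_comm,
      smul_mul_assoc, mul_smul_comm, Finset.sum_sub_distrib, ← Finset.smul_sum, e1, e2, e3,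
      RCLike.star_def, Complex.conj_ofReal, smul_smul]
    push_cast
    module
  have h3 : (0 : B) ≤ ((a ^ 2 : ℝ) : ℂ) • ∑ μ, star (z μ) * z μ - (a : ℂ) • (star X * X) := by
    rw [← h2]; exact Finset.sum_nonneg fun _ _ => star_mul_self_nonneg _
  have h4 : (0 : B) ≤ ((a ^ 2 : ℝ) : ℂ) • ∑ j, star (w j) * w j :=
    smul_nonneg (Complex.zero_le_real.mpr (by positivity))
      (Finset.sum_nonneg fun _ _ => star_mul_self_nonneg _)
  have h5 : (a : ℂ) • (star X * X) ≤ ((a ^ 2 * (c ^ 2 * b) : ℝ) : ℂ) • 1 := by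
    rw [Complex.ofReal_mul, ← smul_smul, ← h1, smul_add, ← sub_nonneg]
    convert add_nonneg h3 h4 using 1
    abel
  have h6 := CStarAlgebra.norm_le_norm_of_nonneg_of_le
    (smul_nonneg (Complex.zero_le_real.mpr ha.le) (star_mul_self_nonneg X)) h5
  rw [norm_smul, norm_smul, CStarRing.norm_star_mul_self, Complex.norm_real, Complex.norm_real,
    Real.norm_of_nonneg ha.le, Real.norm_of_nonneg (by positivity)] at h6
  have h7 : ‖(1 : B)‖ ≤ 1 := by
    rcases subsingleton_or_nontrivial B with h | h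
    · rw [Subsingleton.elim (1 : B) 0]; simp
    · simp
  have h8 : a * (‖X‖ * ‖X‖) ≤ a * (a * b * c ^ 2) := by
    have : 0 ≤ a ^ 2 * (c ^ 2 * b) := by positivity
    nlinarith
  rw [sq]; exact le_of_mul_le_mul_left h8 ha

/-- `ℓ²(X)` -/
abbrev L2 (X : Type) : Type := lp (fun _ : X => ℂ) 2

open Classical in
/-- basis vector -/
noncomputable def dl {X : Type} (x : X) : L2 X := lp.single 2 x 1

open Classical in
theorem inner_dl {X : Type} (x y : X) : ⟪dl x, dl y⟫_ℂ = if x = y then 1 else 0 := by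
  rw [dl, lp.inner_single_left, dl, lp.single_apply, Pi.single_apply]
  split_ifs <;> simp

theorem orth_dl {X : Type} : Orthonormal ℂ (dl : X → L2 X) := by
  classical
  rw [orthonormal_iff_ite]
  intro x y
  rw [inner_dl]

theorem L2_ext {X E : Type} [NormedAddCommGroup E] [NormedSpace ℂ E] {f g : L2 X →L[ℂ] E}
    (h : ∀ x, f (dl x) = g (dl x)) : f = g := by
  classical
  refine lp.ext_continuousLinearMap (by simp) fun x => ?_
  ext
  have := h x
  simp only [dl] at this
  simp only [ContinuousLinearMap.comp_apply, lp.singleContinuousLinearMap_apply]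
  convert this

theorem L2_vec_ext {X : Type} {u v : L2 X} (h : ∀ x, ⟪dl x, u⟫_ℂ = ⟪dl x, v⟫_ℂ) : u = v := by
  refine lp.ext (funext fun x => ?_)
  have := h x
  simpa [dl, lp.inner_single_left] using this

/-- the isometry induced by an injection -/
noncomputable def isoL {X : Type} (f : X → X) (hf : Function.Injective f) : L2 X →ₗᵢ[ℂ] L2 X :=
  (orth_dl.comp f hf).orthogonalFamily.linearIsometry

/-- the isometry induced by an injection -/
noncomputable def iso {X : Type} (f : X → X) (hf : Function.Injective f) : L2 X →L[ℂ] L2 X :=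
  (isoL f hf).toContinuousLinearMap

theorem iso_dl {X : Type} (f : X → X) (hf : Function.Injective f) (x : X) :
    iso f hf (dl x) = dl (f x) := by
  classical
  have := (orth_dl.comp f hf).orthogonalFamily.linearIsometry_apply_single (i := x) (1 : ℂ)
  simp only [LinearIsometry.toSpanSingleton_apply, one_smul, Function.comp] at this
  rw [← this]
  rfl

theorem star_iso_mul {X : Type} (f : X → X) (hf : Function.Injective f) :
    star (iso f hf) * iso f hf = 1 := by
  ext1 v
  refine ext_inner_left ℂ fun u => ?_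
  rw [ContinuousLinearMap.mul_apply, ContinuousLinearMap.star_eq_adjoint,
    ContinuousLinearMap.adjoint_inner_right]
  exact (isoL f hf).inner_map_map u v

theorem star_iso_dl {X : Type} (f : X → X) (hf : Function.Injective f) (x : X) :
    star (iso f hf) (dl (f x)) = dl x := by
  rw [← iso_dl f hf, ← ContinuousLinearMap.mul_apply, star_iso_mul]; rfl

theorem star_iso_dl_of_not {X : Type} (f : X → X) (hf : Function.Injective f) (y : X)
    (hy : ∀ x, f x ≠ y) : star (iso f hf) (dl y) = 0 := by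
  refine L2_vec_ext fun x => ?_
  rw [ContinuousLinearMap.star_eq_adjoint, ContinuousLinearMap.adjoint_inner_right, iso_dl, inner_dl,
    if_neg (hy x), inner_zero_right]

/-- permutation representation -/
noncomputable def permRep {X : Type} : Equiv.Perm X →* unitary (L2 X →L[ℂ] L2 X) where
  toFun σ := ⟨iso σ σ.injective, by
    rw [Unitary.mem_iff]
    refine ⟨star_iso_mul _ _, L2_ext fun y => ?_⟩
    obtain ⟨x, rfl⟩ := σ.surjective y
    rw [ContinuousLinearMap.mul_apply, star_iso_dl, iso_dl]; rfl⟩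
  map_one' := Subtype.ext (L2_ext fun x => by simp [iso_dl])
  map_mul' σ τ := Subtype.ext (L2_ext fun x => by simp [iso_dl])

theorem permRep_dl {X : Type} (σ : Equiv.Perm X) (x : X) :
    (permRep σ : L2 X →L[ℂ] L2 X) (dl x) = dl (σ x) := iso_dl _ _ _

end Crest.Agent.KE
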